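import Crest.Agent.X212.Kh4.Bas

/-!
# X212 / Kh4 (helper4): TC-1
-/

set_option autoImplicit false
set_option linter.unusedSectionVars false

open Finset Classical

noncomputable section

namespace Crest.Agent.X212.Kh4

open Hp13 Hk
open Alg36 (Om Esc mix)
open Kh11 (WS sctr_min sctr_max)

variable {P : Type} [PartialOrder P] [Fintype P] {X : Set P} {w : P → P → ℤ}

theorem eu_low {A B : Set P} (hA : IsLowerSet A) (hB : IsLowerSet B) :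
    eu (A ∪ B) = eu A + eu B - eu (A ∩ B) := by
  rw [← ee_lower hA, ← ee_lower hB, ← ee_lower (hA.union hB), ← ee_lower (hA.inter hB),
    ← Set.union_sdiff_self, ee_union Set.disjoint_sdiff_right, ← Set.sdiff_inter_self_eq_sdiff,
    ee_diff Set.inter_subset_right]
  ring

theorem eu_dj {A B : Set P} (hA : IsLowerSet A) (hB : IsLowerSet B) (h : Disjoint A B) :
    eu (A ∪ B) = eu A + eu B := by
  rw [← ee_lower hA, ← ee_lower hB, ← ee_lower (hA.union hB), ee_union h]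

theorem mvK_low {K N : Set P} (hK : IsLowerSet K) : IsLowerSet (mvK K N) :=
  fun _ _ l ⟨a, x, hx, k⟩ => ⟨hK (t2_mono l) a, x, Ch.bot_anti l hx, k⟩
theorem mvH_low {K N : Set P} (hK : IsLowerSet K) : IsLowerSet (mvH K N) :=
  fun _ _ l ⟨a, x, hx, k⟩ => ⟨hK (t2_mono l) a, x, Ch.bot_anti l hx, k⟩
theorem mvS_eq (X N : Set P) : mvS X N = mvH (cl X) N := rfl
theorem mv_union (K N : Set P) : mvK K N ∪ mvH K N = t2 ⁻¹' K :=
  Set.ext fun c => ⟨fun k => k.elim (·.1) (·.1), fun k => (_root_.em (c.bot.bot ∈ N)).elim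
    (fun j => Or.inr ⟨k, _, c.bot.bot_mem, j⟩) fun j => Or.inl ⟨k, _, c.bot.bot_mem, j⟩⟩
theorem mv_inter (X N : Set P) : mvK (cl X) N ∩ mvS X N = mvD X N :=
  Set.ext fun _ => ⟨fun k => ⟨k.2, k.1.2⟩, fun k => ⟨⟨k.1.1, k.2⟩, k.1⟩⟩
theorem slab_low : IsLowerSet (slab X w) := mvH_low (cl_low _)

theorem eu_t2 (K : Set P) : eu (t2 ⁻¹' K : Set (Ch (Ch P))) = eu K :=
  (Alg36.ws_sd (Ch.top ⁻¹' K)).eu_eq.trans (Alg36.ws_sd K).eu_eq

/-- a set that is clopen and connected is a component -/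
theorem cmp_of {E C D : Set P} (hD : IsCmp E D) (hC : Conn C) (hs : C ⊆ E)
    (cl : ∀ x ∈ C, ∀ y ∈ E, Cm x y → y ∈ C) {x : P} (hx : x ∈ C) (hx' : x ∈ D) : D = C := by
  rw [hD.eq hx']
  exact Set.ext fun y => ⟨fun k => (k.2.in_clopen cl hx).mem hx,
    fun k => ⟨hs k, (hC x hx y k).mono hs⟩⟩

/-- a connected set that meets `U` and its complement -/
theorem ex_edge {E U : Set P} (hE : Conn E) (hU : IsUpperSet U) {a b : P} (ha : a ∈ E) (hb : b ∈ E)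
    (h1 : a ∉ U) (h2 : b ∈ U) : ∃ x ∈ E, ∃ y ∈ E ∩ U, x ∉ U ∧ x ≤ y := by
  by_contra n
  exact (hE a ha b hb).ind (p := fun t => t ∉ U) h1 (fun x hx y hy l =>
    ⟨fun k j => n ⟨x, hx, y, ⟨hy, j⟩, k, l⟩, fun k j => k (hU l j)⟩) h2

section td

variable (hB : BrgStmt) (hX : Rg X) (hw : TD X w)
include hB hX hw

theorem ctr_ca : Ctr (CA X w) := ((hB P X w hX hw.toS1).2.2.2.1 hw).2.2
theorem conn_bd : Conn (Cv (Om X) w) := ((hB P X w hX hw.toS1).2.2.2.1 hw).2.1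
theorem ctr_cv : Ctr (Cv (cl X) w) := (hB P X w hX hw.toS1).2.2.1.ctr_iff.1 (ctr_ca hB hX hw)

theorem ctr_scar {b : ℤ} (hb : b = 0 ∨ b = 1) : Ctr (scar X w b) := by
  have := (ws_scar hw.toS1 hb subset_rfl).ctr_iff.2 (ctr_cv hB hX hw)
  rwa [Set.inter_eq_left.2 (show scar X w b ⊆ t2 ⁻¹' Cv (cl X) w from
    fun _ k => scar_t2 hw.toS1 k)] at this

theorem ctr_scar_int {b : ℤ} (hb : b = 0 ∨ b = 1) : Ctr (scar X w b ∩ t3 ⁻¹' X) :=
  (ws_scar' hw.toS1 hb X).ctr_iff.2 (cv_int (X := X) (w := w) ▸ ctr_ca hB hX hw)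

theorem conn_scar_bd {b : ℤ} (hb : b = 0 ∨ b = 1) :
    Conn (scar X w b ∩ t3 ⁻¹' Om X) ∧ (scar X w b ∩ t3 ⁻¹' Om X).Nonempty := by
  have := ws_scar' hw.toS1 hb (Om X)
  rw [cv_low (om_low hX.up) om_cl] at this
  exact ⟨this.conn_iff.2 (conn_bd hB hX hw), this.ne_iff.2 hw.ne⟩

theorem cmp_mvD {D : Set (Ch (Ch (Ch P)))}
    (hD : IsCmp (mvD (Ch.top ⁻¹' X) (Cv (cl X) w)) D) : ∃ b, (b = 0 ∨ b = 1) ∧ D = scar X w b := by
  obtain ⟨x, hx⟩ := hD.ne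
  have k : ∀ y ∈ mvD (Ch.top ⁻¹' X) (Cv (cl X) w), ∃ b, (b = 0 ∨ b = 1) ∧ y ∈ scar X w b :=
    fun y hy => (mvD_eq hw.toS1 ▸ hy : y ∈ scar X w 0 ∪ scar X w 1).elim
      (fun j => ⟨0, Or.inl rfl, j⟩) fun j => ⟨1, Or.inr rfl, j⟩
  obtain ⟨b, hb, j⟩ := k x (hD.sub hx)
  refine ⟨b, hb, cmp_of hD (ctr_scar hB hX hw hb).conn (fun _ k => k.1) (fun y hy z hz l => ?_) j hx⟩
  obtain ⟨b', -, j'⟩ := k z hz
  rwa [scar_cm hw.toS1 hy j' l]

theorem ctr_slab (hW : MvWStmt) : Ctr (slab X w) := by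
  have o := opn_cv hw.toS1
  have := (hW _ (cl (Ch.top ⁻¹' X)) (Cv (cl X) w) (cl_low _) o.up).2.1
  rw [Set.inter_eq_right.2 fun c hc => (o.sub hc).elim (fun k => sub_cl k) fun k => om_cl k] at this
  exact this.ctr_iff.2 (ctr_cv hB hX hw)

end td

section mv

variable (hM : Mv1Stmt) (hX : Rg X) (hw : S1 X w)
include hM hX hw

theorem rg_tcut : Rg (tcut X w) := (hM _ _ _ _ (rg_sd hX) (bd_om (rg_sd hX).up) (opn_cv hw)).1

theorem cl_tcut : cl (tcut X w) = mvK (cl (Ch.top ⁻¹' X)) (Cv (cl X) w) :=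
  (hM _ _ _ _ (rg_sd hX) (bd_om (rg_sd hX).up) (opn_cv hw)).2.2.1

theorem om_tcut : Om (tcut X w) =
    mvK (Ch.top ⁻¹' Om X) (Cv (cl X) w) ∪ (scar X w 0 ∪ scar X w 1) := by
  have := (hM _ _ _ _ (rg_sd hX) (bd_om (rg_sd hX).up) (opn_cv hw)).2.2.2.1
  rwa [Set.sdiff_self, Set.preimage_empty, Set.union_empty, mvG, mvD_eq hw, om_sd] at this

theorem tcut_union : cl (tcut X w) ∪ slab X w = t3 ⁻¹' cl X := by
  rw [cl_tcut hM hX hw, slab, mvS_eq, mv_union, cl_sd]; rfl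

theorem tcut_inter : cl (tcut X w) ∩ slab X w = scar X w 0 ∪ scar X w 1 := by
  rw [cl_tcut hM hX hw, slab, mv_inter, mvD_eq hw]

theorem scar_om {b : ℤ} (hb : b = 0 ∨ b = 1) : scar X w b ⊆ Om (tcut X w) := by
  rw [om_tcut hM hX hw]
  rcases hb with rfl | rfl
  exacts [fun _ k => Or.inr (Or.inl k), fun _ k => Or.inr (Or.inr k)]

/-- over `X` the scar is open in the boundary -/
theorem scar_star {b : ℤ} {c d : Ch (Ch (Ch P))} (hc : c ∈ scar X w b) (h : t3 c ∈ X)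
    (hd : d ∈ Om (tcut X w)) (l : Cm c d) : d ∈ scar X w b := by
  rcases l with l | l
  · rw [om_tcut hM hX hw] at hd
    rcases hd with k | k | k
    · exact absurd (hX.up (t3_mono l) h) k.1.1
    · rwa [scar_cm hw hc k (Or.inl l)]
    · rwa [scar_cm hw hc k (Or.inl l)]
  · exact scar_low hw b l hc

end mv

theorem off_flat {K : Set P} (hK : IsLowerSet K) (hf : Flat (K ∩ cl X) w) {c : Ch (Ch (Ch P))}
    (hc : t3 c ∈ K) : ∀ x ∈ c.bot.1, x ∉ Cv (cl X) w := fun x hx k =>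
  (hf _ ⟨hK (x.bot_le_top.trans (le_t3 hx)) hc, k.1 _ x.bot_mem⟩ _
    ⟨hK (le_t3 hx) hc, k.1 _ x.top_mem⟩ x.bot_le_top).not_gt k.2

theorem tc1 (hB : BrgStmt) (hN : NmStmt) (hW : MvWStmt) (hM : Mv1Stmt) : Tc1Stmt := by
  intro P _ _ X w hX hw
  have s := hw.toS1
  have o := opn_cv s
  have r := rg_tcut hM hX s
  refine ⟨o, r, fun a => ?_, ?_, fun D hD => ?_, ctr_slab hB hX hw hW, mvD_eq s, ?_,
    fun K hK hf => ⟨?_, fun c hc => ⟨hc.2, off_flat hK hf hc.1⟩, fun c hc => ?_⟩, fun b hb =>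
      ⟨scar_low s b, ctr_scar hB hX hw hb, scar_om hM hX s hb, ?_, ctr_scar_int hB hX hw hb,
        (conn_scar_bd hB hX hw hb).1, ?_⟩⟩
  · refine (hM _ _ _ _ (rg_sd hX) (bd_om (rg_sd hX).up) o).2.2.2.2.1 (amb_sd a) fun n hn => ?_
    obtain ⟨m, hm⟩ := hw.ne
    exact ⟨m, by rw [om_sd]; exact hm.1 _ m.top_mem, (ctr_cv hB hX hw).conn n hn m
      ⟨fun x hx => om_cl (hm.1 x hx), hm.2⟩⟩
  · have e1 := eu_low (cl_low (tcut X w)) (slab_low (X := X) (w := w))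
    rw [tcut_union hM hX s, tcut_inter hM hX s, eu_dj (scar_low s 0) (scar_low s 1) scar_dj,
      (ctr_scar hB hX hw (Or.inl rfl)).eu, (ctr_scar hB hX hw (Or.inr rfl)).eu,
      (ctr_slab hB hX hw hW).eu, ← ((hN _).1 _ r).2.1.eu_eq] at e1
    have e2 : eu (t3 ⁻¹' cl X : Set (Ch (Ch (Ch P)))) = eu X :=
      ((eu_t2 (Ch.top ⁻¹' cl X)).trans (Alg36.ws_sd _).eu_eq).trans
        ((hN _).1 _ hX).2.1.eu_eq.symm
    omega
  · obtain ⟨b, hb, rfl⟩ := cmp_mvD hB hX hw hD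
    rw [om_sd]
    exact ⟨ctr_scar hB hX hw hb, (conn_scar_bd hB hX hw hb).1⟩
  · rw [om_tcut hM hX s]
    exact Set.union_subset_union_left _ fun _ k => k.1
  · exact Set.disjoint_left.2 fun c hc ⟨_, x, hx, k⟩ => off_flat hK hf hc x hx k
  · rw [om_tcut hM hX s]
    exact Or.inl ⟨hc.2, _, c.bot.bot_mem, off_flat hK hf hc.1 _ c.bot.bot_mem⟩
  · have m : Mf 2 (Subtype.val ⁻¹' Set.univ : Set (Om (tcut X w))) := ((hN _).1 _ r).1
    exact Mf.emb (f := Set.inclusion (scar_om hM hX s hb)) (fun _ _ => Iff.rfl)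
      (fun _ _ => Set.mem_univ _) (fun c hc x l => ⟨⟨x.1, scar_star hM hX s c.2 hc x.2 l⟩, rfl⟩) m
  · obtain ⟨x, hx⟩ := (conn_scar_bd hB hX hw hb).2
    obtain ⟨y, hy⟩ := (ctr_scar_int hB hX hw hb).ne
    exact ex_edge (ctr_scar hB hX hw hb).conn (hX.up.preimage t3_mono) hx.1 hy.1 hx.2.1 hy.2

end Crest.Agent.X212.Kh4
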