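import Crest.Agent.X212.Kh11.Leaf
import Crest.Agent.X212.Hp13.Tst

/-!
# X212 / Kh4 (helper4): cutting along a disc, the sets `slab`, `scar`, `tcut`
-/

set_option autoImplicit false
set_option linter.unusedSectionVars false

open Finset Classical

noncomputable section

namespace Crest.Agent.X212.Kh4

open Hp13 Hk
open Alg36 (Om Esc mix)
open Kh11 (WS sctr_min sctr_max)

variable {P : Type} [PartialOrder P] [Fintype P] {X : Set P} {w : P → P → ℤ}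

theorem cl_low (X : Set P) : IsLowerSet (cl X) := fun _ _ h ⟨a, ha, k⟩ => ⟨a, ha, h.trans k⟩
theorem sub_cl : X ⊆ cl X := fun x h => ⟨x, h, le_rfl⟩
theorem om_cl : Om X ⊆ cl X := fun _ h => h.2
theorem cl_cases {x : P} (h : x ∈ cl X) : x ∈ X ∨ x ∈ Om X := (_root_.em (x ∈ X)).imp id fun k => ⟨k, h⟩
theorem om_low (h : IsUpperSet X) : IsLowerSet (Om X) :=
  fun _ _ l k => ⟨fun j => k.1 (h l j), cl_low X l k.2⟩

theorem cl_sd (X : Set P) : cl (Ch.top ⁻¹' X : Set (Ch P)) = Ch.top ⁻¹' cl X := by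
  ext c
  refine ⟨fun ⟨a, ha, k⟩ => ⟨a.top, ha, Ch.top_mono k⟩, fun ⟨a, ha, k⟩ =>
    ⟨c.ins a fun x hx => Or.inr ((Ch.le_top hx).trans k), ?_, c.le_ins _ _⟩⟩
  exact Set.mem_preimage.2 ((Alg36.top_ins' _ k).symm ▸ ha)

theorem om_sd (X : Set P) : Om (Ch.top ⁻¹' X : Set (Ch P)) = Ch.top ⁻¹' Om X :=
  Set.ext fun c => and_congr Iff.rfl (Set.ext_iff.1 (cl_sd X) c)

theorem bd_om (h : IsUpperSet X) : Bd X (Om X) := ⟨om_low h, subset_rfl, fun _ _ _ k _ => k⟩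

theorem rg_sd (h : Rg X) : Rg (Ch.top ⁻¹' X : Set (Ch P)) :=
  ⟨h.up.preimage Ch.top_mono, Alg36.Mf.sd h.mf, Alg36.Nice.sd h.up.ordConnected h.nice⟩

theorem amb_sd (h : Amb X) : Amb (Ch.top ⁻¹' X : Set (Ch P)) :=
  ⟨rg_sd h.toRg, Alg36.Bnd.sd h.up.ordConnected h.nice h.bnd,
    Alg36.Bnd.sd h.up.ordConnected h.nice h.bnd2, h.esc.sd⟩

theorem mem_cv {K : Set P} (hK : IsLowerSet K) {c : Ch P} :
    c ∈ Cv K w ↔ c.top ∈ K ∧ 0 < w c.bot c.top :=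
  and_congr ⟨fun h => h _ c.top_mem, fun h _ hx => hK (Ch.le_top hx) h⟩ Iff.rfl

theorem s1_add (h : S1 X w) {x y z : P} (hz : z ∈ cl X) (h1 : x ≤ y) (h2 : y ≤ z) :
    w x z = w x y + w y z :=
  h.coc x (cl_low X (h1.trans h2) hz) y (cl_low X h2 hz) z hz h1 h2

theorem s1_self (h : S1 X w) {x : P} (hx : x ∈ cl X) : w x x = 0 := by
  have := s1_add h hx le_rfl le_rfl
  omega

theorem s1_mono (h : S1 X w) {a x y z : P} (hz : z ∈ cl X) (h0 : a ≤ x) (h1 : x ≤ y)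
    (h2 : y ≤ z) : w x y ≤ w a z := by
  have := s1_add h hz h0 (h1.trans h2)
  have := s1_add h hz h1 h2
  have := h.nn a x (cl_low X (h1.trans h2) hz) h0
  have := h.nn y z hz h2
  omega

/-- the level set is relatively open -/
theorem cv_up (h : S1 X w) {c d : Ch P} (hc : c ∈ Cv (cl X) w) (hd : d.top ∈ cl X) (l : c ≤ d) :
    d ∈ Cv (cl X) w :=
  (mem_cv (cl_low X)).2 ⟨hd, hc.2.trans_le
    (s1_mono h hd (Ch.bot_anti l) c.bot_le_top (Ch.top_mono l))⟩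

theorem opn_cv (h : S1 X w) :
    Opn (Ch.top ⁻¹' X) (Om (Ch.top ⁻¹' X)) (Cv (cl X) w : Set (Ch P)) :=
  ⟨fun c hc => cl_cases (by rw [cl_sd]; exact hc.1 _ c.top_mem),
    fun _ hx _ hy l => cv_up h hx (by rwa [cl_sd] at hy) l⟩

/-! ### two general weak equivalences -/

theorem ws_topV {E V : Set P} (hV : V ⊆ E) :
    WS {c : Ch P | (∀ x ∈ c.1, x ∈ E) ∧ c.top ∈ V} V Ch.top := by
  refine WS.of_le (fun _ hc => hc.2) (fun _ _ _ _ h => Ch.top_mono h) fun y hy => ?_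
  have h1 : WS {c : Ch P | (((∀ x ∈ c.1, x ∈ E) ∧ c.top ∈ V) ∧ c.top ≤ y) ∧ y ∈ c.1}
      {c : Ch P | ((∀ x ∈ c.1, x ∈ E) ∧ c.top ∈ V) ∧ c.top ≤ y} id := by
    refine WS.of_clo' (fun _ h => h.1) fun c hc => ?_
    have e := Alg36.top_ins' (c := c) (x := y)
      (fun x hx => Or.inr ((Ch.le_top hx).trans hc.2)) hc.2
    refine ⟨_, ⟨⟨⟨fun x hx => ?_, e.symm ▸ hy⟩, e.le⟩, mem_insert_self _ _⟩, c.le_ins _ _,
      fun b hb l => insert_subset hb.2 l⟩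
    rcases mem_insert.1 hx with k | k
    exacts [k ▸ hV hy, hc.1.1 x k]
  exact h1.ctr_iff.1 (sctr_min (m := Ch.pt y)
    ⟨⟨⟨by simpa using hV hy, by simpa using hy⟩, by simp⟩, by simp⟩ fun c hc => Ch.pt_le.2 hc.2)

theorem ctr_ends {m n : P} (l : m ≤ n) : Ctr {d : Ch P | d.top = n ∧ d.bot ≤ m} := by
  have h1 : WS {d : Ch P | (d.top = n ∧ d.bot ≤ m) ∧ ∀ e ∈ d.1, e ≤ m ∨ e = n}
      {d : Ch P | d.top = n ∧ d.bot ≤ m} id := by
    refine WS.of_int' (fun _ h => h.1) fun d hd => ?_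
    have b : d.bot ∈ d.1.filter fun e => e ≤ m ∨ e = n := mem_filter.2 ⟨d.bot_mem, Or.inl hd.2⟩
    refine ⟨d.sub _ ⟨_, b⟩ (filter_subset _ _), ⟨⟨Ch.top_eq
      (mem_filter.2 ⟨hd.1 ▸ d.top_mem, Or.inr rfl⟩) fun x hx => hd.1 ▸ Ch.le_top (mem_filter.1 hx).1,
      (Ch.bot_le b).trans hd.2⟩, fun e he => (mem_filter.1 he).2⟩, filter_subset _ _,
      fun c hc k x hx => mem_filter.2 ⟨k hx, hc.2 x hx⟩⟩
  have h2 : WS {d : Ch P | ((d.top = n ∧ d.bot ≤ m) ∧ ∀ e ∈ d.1, e ≤ m ∨ e = n) ∧ m ∈ d.1}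
      {d : Ch P | (d.top = n ∧ d.bot ≤ m) ∧ ∀ e ∈ d.1, e ≤ m ∨ e = n} id := by
    refine WS.of_clo' (fun _ h => h.1) fun d hd => ?_
    have c : ∀ x ∈ d.1, Cm m x := fun x hx => (hd.2 x hx).symm.imp (fun k : x = n => k ▸ l) id
    refine ⟨d.ins m c, ⟨⟨⟨(Alg36.top_ins c (hd.1.1 ▸ l)).trans hd.1.1,
      Ch.bot_le (mem_insert_self _ _)⟩, fun e he => ?_⟩, mem_insert_self _ _⟩, d.le_ins _ _,
      fun b hb k => insert_subset hb.2 k⟩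
    rcases mem_insert.1 he with k | k
    exacts [Or.inl k.le, hd.2 e k]
  refine h1.ctr_iff.1 (h2.ctr_iff.1 (sctr_min (m := Ch.pr m n l) ⟨⟨⟨by simp, by simp⟩, ?_⟩, by simp⟩
    fun c hc => insert_subset hc.2 (singleton_subset_iff.2 (hc.1.1.1 ▸ c.top_mem))))
  simp

/-! ### the scars -/

/-- the scar `b`, one level down -/
def Sd (X : Set P) (w : P → P → ℤ) (b : ℤ) : Set (Ch (Ch P)) :=
  {d | d.top.top ∈ cl X ∧ w d.bot.bot d.bot.top = 0 ∧ w d.top.bot d.top.top = 1 ∧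
    w d.top.bot d.bot.top = b}

theorem sd_up (h : S1 X w) {b : ℤ} {d e : Ch (Ch P)} (hd : d ∈ Sd X w b) (he : e.top.top ∈ cl X)
    (l : d ≤ e) : e ∈ Sd X w b := by
  obtain ⟨h0, h1, h2, h3⟩ := hd
  have lb : e.bot ≤ d.bot := Ch.bot_anti l
  have lt : d.top ≤ e.top := Ch.top_mono l
  have m1 : d.bot.top ≤ e.top.top := Ch.top_mono (d.bot_le_top.trans lt)
  have c1 := cl_low X m1 he
  have c2 := cl_low X (Ch.top_mono lb) c1
  have a1 := s1_mono h c1 (Ch.bot_anti lb) e.bot.bot_le_top (Ch.top_mono lb)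
  have a2 := h.nn _ _ c2 e.bot.bot_le_top
  have a3 := s1_mono h he (Ch.bot_anti lt) d.top.bot_le_top (Ch.top_mono lt)
  have a4 := h.le1 _ _ he e.top.bot_le_top
  have m2 : d.top.bot ≤ d.bot.top := (Ch.bot_anti d.bot_le_top).trans d.bot.bot_le_top
  have m3 : e.top.bot ≤ e.bot.top := (Ch.bot_anti e.bot_le_top).trans e.bot.bot_le_top
  have a5 := s1_add h c1 (Ch.bot_anti lt) m2
  have a6 := s1_add h c1 m3 (Ch.top_mono lb)
  have a7 := s1_add h h0 (Ch.bot_anti lt) d.top.bot_le_top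
  have a8 := h.nn _ _ (cl_low X d.top.bot_le_top h0) (Ch.bot_anti lt)
  have a9 := h.le1 _ _ h0 ((Ch.bot_anti lt).trans d.top.bot_le_top)
  have b1 := s1_mono h c1 ((Ch.bot_anti lb).trans e.bot.bot_le_top) (Ch.top_mono lb) le_rfl
  have b2 := h.nn _ _ c1 (Ch.top_mono lb)
  exact ⟨he, by omega, by omega, by omega⟩

theorem t3_def (c : Ch (Ch (Ch P))) : t3 c = c.top.top.top := rfl
theorem t2_def (c : Ch (Ch P)) : t2 c = c.top.top := rfl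
theorem t3_mono : Monotone (t3 : Ch (Ch (Ch P)) → P) :=
  fun _ _ l => Ch.top_mono (Ch.top_mono (Ch.top_mono l))
theorem t2_mono : Monotone (t2 : Ch (Ch P) → P) := fun _ _ l => Ch.top_mono (Ch.top_mono l)

theorem le_t3 {c : Ch (Ch (Ch P))} {x : Ch P} (hx : x ∈ c.bot.1) : x.top ≤ t3 c :=
  Ch.top_mono ((Ch.le_top hx).trans (Ch.top_mono c.bot_le_top))

theorem mem_slab (h : S1 X w) {c : Ch (Ch (Ch P))} :
    c ∈ slab X w ↔ t3 c ∈ cl X ∧ w c.bot.top.bot c.bot.top.top = 1 := by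
  refine and_congr (by rw [cl_sd]; rfl) Iff.rfl |>.trans (and_congr_right fun k => ?_)
  have k' := cl_low X (le_t3 c.bot.top_mem) k
  refine ⟨fun ⟨x, hx, j⟩ => ?_, fun j => ⟨_, c.bot.top_mem, (mem_cv (cl_low X)).2 ⟨k', by omega⟩⟩⟩
  have := (cv_up h j k' (Ch.le_top hx)).2
  have := h.le1 _ _ k' c.bot.top.bot_le_top
  omega

theorem off_iff (h : S1 X w) {c : Ch (Ch (Ch P))} (k : t3 c ∈ cl X) :
    (∃ x ∈ c.bot.1, x ∉ Cv (cl X) w) ↔ w c.bot.bot.bot c.bot.bot.top = 0 := by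
  have k' := cl_low X (le_t3 c.bot.bot_mem) k
  have := h.nn _ _ k' c.bot.bot.bot_le_top
  refine ⟨fun ⟨x, hx, j⟩ => by_contra fun n => j (cv_up h ((mem_cv (cl_low X)).2 ⟨k', by omega⟩)
    (cl_low X (le_t3 hx) k) (Ch.bot_le hx)), fun j => ⟨_, c.bot.bot_mem, fun n => ?_⟩⟩
  have := n.2
  omega

theorem mem_scar (h : S1 X w) {b : ℤ} {c : Ch (Ch (Ch P))} :
    c ∈ scar X w b ↔ t3 c ∈ cl X ∧ c.bot ∈ Sd X w b :=
  ⟨fun ⟨⟨a, k⟩, e⟩ => let a := (mem_slab h).1 a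
    ⟨a.1, cl_low X (le_t3 c.bot.top_mem) a.1, (off_iff h a.1).1 k, a.2, e⟩,
   fun ⟨a, _, k1, k2, e⟩ => ⟨⟨(mem_slab h).2 ⟨a, k2⟩, (off_iff h a).2 k1⟩, e⟩⟩

theorem mem_scar' (h : S1 X w) {b : ℤ} {c : Ch (Ch (Ch P))} :
    c ∈ scar X w b ↔ ∀ d ∈ c.1, d ∈ Sd X w b :=
  (mem_scar h).trans ⟨fun k _ hd => sd_up h k.2
    (cl_low X (t2_mono (Ch.le_top hd)) k.1) (Ch.bot_le hd),
    fun k => ⟨(k _ c.top_mem).1, k _ c.bot_mem⟩⟩

theorem scar_low (h : S1 X w) (b : ℤ) : IsLowerSet (scar X w b) :=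
  fun _ _ l k => (mem_scar' h).2 fun d hd => (mem_scar' h).1 k d (l hd)

theorem mvD_eq (h : S1 X w) :
    mvD (Ch.top ⁻¹' X) (Cv (cl X) w) = scar X w 0 ∪ scar X w 1 := by
  refine Set.ext fun c => ⟨fun k => ?_, fun k => k.elim (·.1) (·.1)⟩
  have k' := cl_low X (le_t3 c.bot.bot_mem) ((mem_slab h).1 k.1).1
  have m : c.bot.top.bot ≤ c.bot.bot.top :=
    (Ch.bot_anti c.bot.bot_le_top).trans c.bot.bot.bot_le_top
  have := h.nn _ _ k' m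
  have := h.le1 _ _ k' m
  by_cases e : w c.bot.top.bot c.bot.bot.top = 0
  exacts [Or.inl ⟨k, e⟩, Or.inr ⟨k, by omega⟩]

theorem scar_dj : Disjoint (scar X w 0) (scar X w 1) :=
  Set.disjoint_left.2 fun _ a b => zero_ne_one (a.2.symm.trans b.2)

/-- comparable cells of the frontier lie in the same scar -/
theorem scar_cm (h : S1 X w) {b b' : ℤ} {c d : Ch (Ch (Ch P))} (hc : c ∈ scar X w b)
    (hd : d ∈ scar X w b') (l : Cm c d) : b = b' :=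
  l.elim (fun l => hc.2.symm.trans (scar_low h b' l hd).2)
    fun l => (scar_low h b l hc).2.symm.trans hd.2

/-- each scar is a copy of the disc -/
theorem ws_scar (h : S1 X w) {b : ℤ} (hb : b = 0 ∨ b = 1) {W : Set (Ch P)}
    (hW : W ⊆ Cv (cl X) w) : WS (scar X w b ∩ t2 ⁻¹' W) W t2 := by
  have h1 := ws_topV (E := Sd X w b) (V := {d | d ∈ Sd X w b ∧ d.top ∈ W}) fun _ k => k.1
  have e : {c : Ch (Ch (Ch P)) | (∀ x ∈ c.1, x ∈ Sd X w b) ∧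
      c.top ∈ {d | d ∈ Sd X w b ∧ d.top ∈ W}} = scar X w b ∩ t2 ⁻¹' W :=
    Set.ext fun c => ⟨fun k => ⟨(mem_scar' h).2 k.1, k.2.2⟩,
      fun k => ⟨(mem_scar' h).1 k.1, (mem_scar' h).1 k.1 _ c.top_mem, k.2⟩⟩
  rw [e] at h1
  refine h1.comp (WS.of_le (fun _ k => k.2) (fun _ _ _ _ l => Ch.top_mono l) fun n hn => ?_)
  obtain ⟨n0, n1⟩ := (mem_cv (cl_low X)).1 (hW hn)
  have n2 := h.le1 _ _ n0 n.bot_le_top
  have cx : ∀ x ∈ n.1, x ∈ cl X := fun x hx => cl_low X (Ch.le_top hx) n0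
  let m : Ch P := n.sub (n.1.filter fun x => w n.bot x = b) (hb.elim
    (fun k => ⟨_, mem_filter.2 ⟨n.bot_mem, (s1_self h (cx _ n.bot_mem)).trans k.symm⟩⟩)
    fun k => ⟨_, mem_filter.2 ⟨n.top_mem, by omega⟩⟩) (filter_subset _ _)
  have h2 : WS {d : Ch (Ch P) | d.top = n ∧ d.bot ≤ m}
      {d | d ∈ {d | d ∈ Sd X w b ∧ d.top ∈ W} ∧ d.top ≤ n} id := by
    refine WS.of_clo' (fun d ⟨d1, d2⟩ => ?_) fun d hd => ?_
    · obtain ⟨a1, a2⟩ := mem_filter.1 (d2 d.bot.bot_mem)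
      obtain ⟨a3, a4⟩ := mem_filter.1 (d2 d.bot.top_mem)
      have := s1_add h (cx _ a3) (Ch.bot_le a1) d.bot.bot_le_top
      exact ⟨⟨⟨d1 ▸ n0, by omega, by rw [d1]; omega, d1 ▸ a4⟩, d1 ▸ hn⟩, d1.le⟩
    · have c : ∀ x ∈ d.1, Cm n x := fun x hx => Or.inr ((Ch.le_top hx).trans hd.2)
      have e := Alg36.top_ins' c hd.2
      obtain ⟨-, a1, -, a2⟩ := sd_up h hd.1.1 (e.symm ▸ n0 : (d.ins n c).top.top ∈ cl X)
        (d.le_ins n c)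
      refine ⟨d.ins n c, ⟨e, fun x hx => ?_⟩, d.le_ins _ _,
        fun f hf l => insert_subset (hf.1 ▸ f.top_mem) l⟩
      have l : (d.ins n c).bot ≤ n := (d.ins n c).bot_le_top.trans e.le
      rw [e] at a2
      have c1 := cx _ (l (d.ins n c).bot.top_mem)
      have := s1_add h c1 (Ch.bot_le (l hx)) (Ch.le_top hx)
      have := s1_mono h c1 (Ch.bot_le hx) (Ch.le_top hx) le_rfl
      have := h.nn _ _ c1 (Ch.le_top hx)
      exact mem_filter.2 ⟨l hx, by omega⟩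
  exact h2.ctr_iff.1 (ctr_ends (filter_subset _ _))

theorem scar_t2 (h : S1 X w) {b : ℤ} {c : Ch (Ch (Ch P))} (hc : c ∈ scar X w b) :
    t2 c ∈ Cv (cl X) w :=
  let ⟨a, _, k, _⟩ := (mem_scar' h).1 hc _ c.top_mem
  (mem_cv (cl_low X)).2 ⟨a, by show 0 < w c.top.top.bot c.top.top.top; omega⟩

/-- the part of a scar over a set of cells of `P` -/
theorem ws_scar' (h : S1 X w) {b : ℤ} (hb : b = 0 ∨ b = 1) (K : Set P) :
    WS (scar X w b ∩ t3 ⁻¹' K) (Cv (cl X) w ∩ Ch.top ⁻¹' K) t2 := by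
  convert ws_scar h hb (W := Cv (cl X) w ∩ Ch.top ⁻¹' K) Set.inter_subset_left using 1
  exact Set.ext fun c => ⟨fun k => ⟨k.1, scar_t2 h k.1, k.2⟩, fun k => ⟨k.1, k.2.2⟩⟩

theorem cv_int : Cv (cl X) w ∩ Ch.top ⁻¹' X = CA X w :=
  Set.ext fun _ => ⟨fun k => ⟨k.2, k.1.2⟩, fun k => ⟨(mem_cv (cl_low X)).2 ⟨sub_cl k.1, k.2⟩, k.1⟩⟩

theorem cv_low {K : Set P} (hK : IsLowerSet K) (hs : K ⊆ cl X) :
    Cv (cl X) w ∩ Ch.top ⁻¹' K = Cv K w :=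
  Set.ext fun c => ⟨fun k => (mem_cv hK).2 ⟨k.2, k.1.2⟩,
    fun k => ⟨⟨fun x hx => hs (k.1 x hx), k.2⟩, k.1 _ c.top_mem⟩⟩

end Crest.Agent.X212.Kh4
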